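import Vale.Agent.P267.H82.Asm2
import Vale.Agent.P267.H431.ExNv

/-!
P267, package LATTICE-LIFT: **the theorem `LiftThm`** (no hypotheses).
-/

set_option autoImplicit false
set_option linter.unusedSectionVars false

open scoped Manifold ContDiff ComplexConjugate
open Set hiding pair_comm
open Vale.Agent.P267.FL Vale.Agent.P267.H158 Vale.Agent.P267.RR Vale.Agent.P267.BlockC
  Vale.Agent.P267.XT Vale.Agent.P267.H431 Vale.Agent.P267.H368

noncomputable section

namespace Vale.Agent.P267.H82

/-- **Lifting of line bundles to the infinite cyclic cover, trivial at both ends.** -/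
theorem liftThm : LiftThm := by
  intro X _ _ _ _ _ _ h n hsm hpr hS
  have hA : Nonempty (C2 ≃L[ℝ] EuclideanSpace ℝ (Fin 4)) := by
    have h1 : Module.finrank ℝ C2 = 4 := by
      have h2 : Module.finrank ℝ ℂ * Module.finrank ℂ C2 = Module.finrank ℝ C2 :=
        Module.finrank_mul_finrank ℝ ℂ C2
      rw [← h2, Complex.finrank_real_complex, Module.finrank_fintype_fun_eq_card]
      simp
    exact ⟨ContinuousLinearEquiv.ofFinrankEq (by rw [h1]; simp)⟩
  obtain ⟨A⟩ := hA
  have hrm : IsManifold 𝓘(ℝ, C2) ∞ X := H928.Int.isManifold_real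
  obtain ⟨G, ⟨D⟩⟩ := exists_cycCover (𝕜 := ℂ) (n := ω) (by exact le_top) A h
  obtain ⟨P⟩ := exists_partUnity G
  exact (liftIn' D P (covFacts (curvThm _) (covMapThm X h)) (fun m _ => formFacts (curvThm _))
    (fun m _ L => D.exists_nv P m L)).exists_lift (covFacts (curvThm _) (covMapThm X h))
    (fun m _ => formFacts (curvThm _)) (fun m _ F G hF hG hF' hG' => BlockC.closed_add hF hG hF' hG') hS

end Vale.Agent.P267.H82

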