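import Vale.Agent.P267.H82.WZig
import Vale.Agent.P267.H995.WForm
import Vale.Agent.P267.H995.Pz

/-!
P267, package LATTICE-LIFT: `Wt` is the form `W` of `H995`.
-/

set_option autoImplicit false
set_option linter.unusedSectionVars false

open scoped Manifold ContDiff ComplexConjugate
open Set
open Vale.Agent.P267.FL Vale.Agent.P267.H995

noncomputable section

namespace Vale.Agent.P267.H82

variable {X : Type*} [TopologicalSpace X] [ChartedSpace C2 X]

theorem pr_mul2 (f : X → ℂ) (F : TwoF X) (x : X) (q q' : Qi) :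
    pr (mul2 f F) x q q' = f x * pr F x q q' := by
  rcases q with i | i <;> rcases q' with j | j
  · simp only [pr, mul2]; ring
  · rfl
  · change -(f x * F.f11 x j i) = f x * -F.f11 x j i
    ring
  · simp only [pr, mul2]; ring

theorem pr_wed (A B : OneF X) (x : X) (q q' : Qi) :
    pr (wed A B) x q q' = vv A x q * vv B x q' - vv A x q' * vv B x q := by
  rcases q with i | i <;> rcases q' with j | j
  · change sg i j * (A.f10 x 0 * B.f10 x 1 - A.f10 x 1 * B.f10 x 0) =
      A.f10 x i * B.f10 x j - A.f10 x j * B.f10 x i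
    fin_cases i <;> fin_cases j <;> simp
  · rfl
  · change -(A.f10 x j * B.f01 x i - A.f01 x i * B.f10 x j) =
      A.f01 x i * B.f10 x j - A.f10 x j * B.f01 x i
    ring
  · change sg i j * (A.f01 x 0 * B.f01 x 1 - A.f01 x 1 * B.f01 x 0) =
      A.f01 x i * B.f01 x j - A.f01 x j * B.f01 x i
    fin_cases i <;> fin_cases j <;> simp

theorem Wt_eq_W {ι : Type*} [Fintype ι] (S : H995.Part X ι) (r : ι → ι → ι → ℂ) :
    Wt S.ψ r = S.W r := by
  refine twoF_ext fun x q q' => ?_
  simp only [Wt, pr_sum, pr_smul, pr_mul2, pr_wed, vv_dF0, Part.pr_W, Part.Wp, Part.wd]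
  refine Finset.sum_congr rfl fun a _ => Finset.sum_congr rfl fun b _ =>
    Finset.sum_congr rfl fun c _ => ?_
  ring

end Vale.Agent.P267.H82
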