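import Vale.Agent.P267.H82.Dual
import Vale.Agent.P267.H82.Bridge
import Vale.Agent.P267.H431.LB6
import Vale.Agent.P267.H622.CovFacts
import Vale.Agent.P267.H283.Canon

/-!
P267, package LATTICE-LIFT: assembly of `LiftIn` from `H431` (`D.nerve`, `D.Nv`, the lift of line
bundles) and `dual_curv`.
-/

set_option autoImplicit false
set_option linter.unusedSectionVars false

open scoped Manifold ContDiff ComplexConjugate
open Set hiding pair_comm
open Vale.Agent.P267.FL Vale.Agent.P267.H158 Vale.Agent.P267.RR Vale.Agent.P267.BlockC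
  Vale.Agent.P267.XT Vale.Agent.P267.H431 Vale.Agent.P267.H368

noncomputable section

namespace Vale.Agent.P267.H82

theorem tsupport_ψ_subset {Y ι : Type*} [TopologicalSpace Y] [ChartedSpace C2 Y] [Fintype ι]
    (S : H995.Part Y ι) (a : ι) : tsupport (S.ψ a) ⊆ S.U a := by
  refine (closure_mono ?_).trans (S.supp a)
  intro x hx
  rw [Function.mem_support] at hx ⊢
  intro h0
  exact hx (by rw [H995.Part.ψ, h0, Complex.ofReal_zero])

section

variable {X : Type} [TopologicalSpace X] [ChartedSpace C2 X] [IsManifold 𝓘(ℂ, C2) ω X]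
  {h : C(X, UnitAddCircle)} {F : Type*} [NormedAddCommGroup F] [InnerProductSpace ℝ F]
  {A : C2 ≃L[ℝ] F} {G : GoodCover X A} (D : CycCover G h)

/-- all fields of `LiftIn` -/
theorem liftIn' [T2Space X] [CompactSpace X] [Nonempty X] (P : PartUnity G) (H : CovFacts h)
    (HF : ∀ (m : ℕ) [NeZero m], FormFacts (CovM h m))
    (hEx : ∀ (m : ℕ) [NeZero m] (L : ALB (CovM h m)), ∃ z, D.Nv P m L z) :
    LiftIn h (Fin G.n) D.nerve D.tet4 (fun m _ L z => D.Nv P m L z)
      (2 * Real.pi * Complex.I) where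
  face := D.tet4_faces
  faceS := D.tet4_shift
  hc := Or.inl rfl
  ex m _ L := hEx m L
  per m _ L z hz := CycCover.Nv.per D P hz
  coc m _ L z hz := CycCover.Nv.coc D P hz
  dual y hy hyT := by
    obtain ⟨b, h1, h2, h3, h4, h5⟩ := dual_curv D H y hy hyT
    refine ⟨b, h1, h2, h3, h4, fun m _ L z => ?_⟩
    rintro ⟨n, hn, hex, rfl⟩ j
    have h6 := h5 m (D.sqM P m).toPart.ψ (D.sqM P m).toPart.smooth (D.sqM P m).toPart.sum_ψ
      (fun a => tsupport_ψ_subset (D.sqM P m).toPart a) n hn
      L.L.curv ((HF m).curv_smooth L)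
    rw [Wt_eq_W] at h6
    exact h6 (exactTwo_of_exact2 hex) j
  lift := D.exists_lift_nerve P HF

end

end Vale.Agent.P267.H82
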