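import Vale.Agent.P267.H82.WZig
import Vale.Agent.P267.H82.Cyc2
import Vale.Agent.P267.H368.XT
import Vale.Agent.P267.H431.Part
import Vale.Agent.P267.H283.Facts2

/-!
P267, package LATTICE-LIFT: field `dual` of `LiftIn`, from the duality theorem of `H368/XT.lean`.
-/

set_option autoImplicit false
set_option linter.unusedSectionVars false

open scoped Manifold ContDiff ComplexConjugate
open Set hiding pair_comm
open Vale.Agent.P267.FL Vale.Agent.P267.H158 Vale.Agent.P267.RR Vale.Agent.P267.BlockC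
  Vale.Agent.P267.XT Vale.Agent.P267.H431 Vale.Agent.P267.H368

noncomputable section

namespace Vale.Agent.P267.H82

section zig

variable {N : Type*} [TopologicalSpace N] [ChartedSpace C2 N]

theorem sm0_of {f : N → ℂ} (hf : Reg0 ∞ 0 f) (x : N) : Sm0 f x := by
  have h1 := (hf _ (chart_mem_atlas C2 x)).contDiffAt
    ((chartAt C2 x).open_target.mem_nhds ((chartAt C2 x).map_source (mem_chart_source C2 x)))
  rwa [LB.loc0_zero] at h1

theorem sm1_of {A : OneF N} (hA : A.Smooth) (x : N) : Sm1 A x where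
  s10 i := (contDiffOn_pi.1 (hA.s10 _ (chart_mem_atlas C2 x)) i).contDiffAt
    ((chartAt C2 x).open_target.mem_nhds ((chartAt C2 x).map_source (mem_chart_source C2 x)))
  s01 i := (contDiffOn_pi.1 (hA.s01 _ (chart_mem_atlas C2 x)) i).contDiffAt
    ((chartAt C2 x).open_target.mem_nhds ((chartAt C2 x).map_source (mem_chart_source C2 x)))

theorem GZig.zigzag {A : Type*} {U : A → Set N} {w : TwoF N} {n : A → A → A → ℂ}
    {η : A → OneF N} {β : A → A → N → ℂ} (hz : GZig U w n η β) (s : Finset A) :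
    Zigzag s U w η β n where
  sm1 i _ x _ := sm1_of (hz.sη i) x
  sm0 i _ j _ x _ := sm0_of (hz.sβ i j) x
  d20 i _ x hx := (hz.dη i x hx).1
  d11 i _ x hx := (hz.dη i x hx).2.1
  d02 i _ x hx := (hz.dη i x hx).2.2
  d10 i _ j _ x hx := (hz.dβ i j x hx.1 hx.2).1
  d01 i _ j _ x hx := (hz.dβ i j x hx.1 hx.2).2
  cst i _ j _ k _ x hx := hz.coc i j k x hx.1.1 hx.1.2 hx.2

variable [IsManifold 𝓘(ℂ, C2) ω N]

/-- scaling a zigzag and adding an exact form -/
theorem GZig.affine {A : Type*} {U : A → Set N} {w w' : TwoF N} {n : A → A → A → ℂ}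
    {η : A → OneF N} {β : A → A → N → ℂ} (hz : GZig U w n η β) (c : ℂ) {θ : OneF N}
    (hθ : θ.Smooth) (hw : θ.d = w' - c • w) :
    GZig U w' (fun i j k => c * n i j k) (fun a => θ + c • η a) (fun a b => c • β a b) where
  sη a := smooth1_add hθ (smooth1_smul c (hz.sη a))
  sβ a b := smooth0_smul c (hz.sβ a b)
  dη a x hx := by
    have h1 := hz.dη a x hx
    rw [eq2_iff] at h1 ⊢
    rw [d_add hθ (smooth1_smul c (hz.sη a)), d_smul c (hz.sη a), hw, map_add, map_sub, map_smul,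
      map_smul, h1]
    abel
  dβ a b x ha hb := by
    obtain ⟨h1, h2⟩ := hz.dβ a b x ha hb
    have h3 : θ + c • η b - (θ + c • η a) = c • (η b - η a) := by
      rw [smul_sub]
      abel
    rw [h3, dF0_smul c (hz.sβ a b)]
    constructor
    · rw [OneF.f10_smul, OneF.f10_smul, Pi.smul_apply, Pi.smul_apply, h1]
    · rw [OneF.f01_smul, OneF.f01_smul, Pi.smul_apply, Pi.smul_apply, h2]
  coc a b c' x ha hb hc := by
    have h1 := hz.coc a b c' x ha hb hc
    simp only [Pi.smul_apply, smul_eq_mul]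
    rw [← h1]
    ring

end zig

section cov

variable {X : Type} [TopologicalSpace X] [ChartedSpace C2 X] [IsManifold 𝓘(ℂ, C2) ω X]
  {h : C(X, UnitAddCircle)} {F : Type*} [NormedAddCommGroup F] [InnerProductSpace ℝ F]
  {A : C2 ≃L[ℝ] F} {G : GoodCover X A} (D : CycCover G h)

/-- the dual form of a two-cycle of the nerve of the periodic cover -/
theorem exists_dual_cov [T2Space X] [CompactSpace X] [Nonempty X] (y : Ch2 (Fin G.n))
    (hy : bdr y = 0) (hyT : ∀ p, y p ≠ 0 → (D.U p.1.1 p.1.2 ∩ D.U p.2.1.1 p.2.1.2 ∩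
      D.U p.2.2.1 p.2.2.2).Nonempty) :
    ∃ b : TwoF (Cov h), b.Smooth ∧ b.Closed ∧ b.Real ∧ CS b ∧
      ∀ (w : TwoF (Cov h)) n η β, GZig (fun a : Fin G.n × ℤ => D.U a.1 a.2) w n η β →
        pair w b = ev n y := by
  classical
  have _ : SigmaCompactSpace (Cov h) := sigmaCompact_cov
  have hp : IsLocalHomeomorph (Cov.p : Cov h → X) := Cov.isLocalHomeomorph_p
  let e : Fin G.n × ℤ → FL.Ch (Cov h) := fun a => D.sheets.chart hp a.1 a.2
  obtain ⟨b, hb⟩ := exists_dualForm (Y := Cov h) (verts y)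
    (fun a : Fin G.n × ℤ => D.U a.1 a.2) e
    (fun a _ => D.sheets.isOpen_U hp.continuous a.1 a.2)
    (fun a _ => D.sheets.chart_mem_atlas hp a.1 a.2)
    (fun a _ => D.sheets.U_sub_chart_source_self hp a.1 a.2)
    (fun a _ => by
      have h1 := D.sheets.inter_convex hp (s := {a}) (a := a) (Finset.mem_singleton_self a) (by
        simp only [Finset.mem_singleton, iInter_iInter_eq_left]
        exact D.sheets.nonempty_U a.1 a.2)
      have h2 := h1.2.2.1
      simp only [Finset.mem_singleton, iInter_iInter_eq_left] at h2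
      exact h2)
    (fun a _ a' _ => by
      change Convex ℝ (D.sheets.chart hp a'.1 a'.2 '' (D.U a.1 a.2 ∩ D.U a'.1 a'.2))
      rcases (D.U a.1 a.2 ∩ D.U a'.1 a'.2).eq_empty_or_nonempty with h0 | h0
      · rw [h0, image_empty]
        exact convex_empty
      · have h3 : (⋂ b ∈ ({a, a'} : Finset (Fin G.n × ℤ)), D.sheets.U b.1 b.2) =
            D.U a.1 a.2 ∩ D.U a'.1 a'.2 := by
          ext x
          simp
        have h1 := D.sheets.inter_convex hp (s := {a, a'}) (a := a') (by simp) (by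
          rw [h3]; exact h0)
        rw [h3] at h1
        exact h1.2.2.1)
    (fun i j k => (y (i, j, k) : ℝ))
    (fun i _ j _ k _ hne => by
      have h1 : y (i, j, k) ≠ 0 := by
        intro h0
        apply hne
        rw [h0, Int.cast_zero]
      exact hyT (i, j, k) h1)
    (fun j hj k hk => by
      have h1 := cycle_verts hy j k hj hk
      have h2 : ((∑ i ∈ verts y, (y (i, j, k) - y (j, i, k) + y (j, k, i)) : ℤ) : ℝ) = 0 := by
        rw [h1, Int.cast_zero]
      push_cast at h2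
      exact h2)
  refine ⟨b, hb.smooth, hb.closed, hb.real, ?_, fun w n η β hz => ?_⟩
  · obtain ⟨K, hK, -, hK0⟩ := hb.supp
    obtain ⟨R, hR⟩ := (hK.image (Cov.continuous_f (h := h)).abs).bddAbove
    refine ⟨R + 1, fun x hx => hK0 x fun hxK => ?_⟩
    have h1 := hR ⟨x, hxK, rfl⟩
    simp only at h1
    linarith
  · have h1 := hb.pair w η β n (hz.zigzag (verts y))
    change intX (fun x => w.wedge b x) = _
    rw [h1, ev_verts]
    refine Finset.sum_congr rfl fun i _ => Finset.sum_congr rfl fun j _ =>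
      Finset.sum_congr rfl fun k _ => ?_
    rw [zsmul_eq_mul]
    push_cast
    rfl

/-- pull back of a nerve cocycle of the `m`-fold cover -/
def pullN {R : Type*} {n : ℕ} (m : ℕ) (c : Fin n × ZMod m → Fin n × ZMod m → Fin n × ZMod m → R) :
    Fin n × ℤ → Fin n × ℤ → Fin n × ℤ → R :=
  fun a b d => c (a.1, (a.2 : ZMod m)) (b.1, (b.2 : ZMod m)) (d.1, (d.2 : ZMod m))

theorem ev_cast' {ι : Type*} (c : ℂ) (z : ι × ℤ → ι × ℤ → ι × ℤ → ℤ) (y : Ch2 ι) :
    ev (fun a b d => c * (z a b d : ℂ)) y = c * ((ev z y : ℤ) : ℂ) := by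
  rw [ev_eq_sum, ev_eq_sum, Finsupp.sum, Finsupp.sum]
  push_cast
  rw [Finset.mul_sum]
  refine Finset.sum_congr rfl fun p _ => ?_
  rw [zsmul_eq_mul]
  simp only [smul_eq_mul, Int.cast_mul]
  ring

/-- **Field `dual`**: pairing of the dual form with the curvature of a line bundle on the
`m`-fold cover. -/
theorem dual_curv [T2Space X] [CompactSpace X] [Nonempty X] (H : CovFacts h) (y : Ch2 (Fin G.n))
    (hy : bdr y = 0) (hyT : ∀ p, y p ≠ 0 → (D.U p.1.1 p.1.2 ∩ D.U p.2.1.1 p.2.1.2 ∩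
      D.U p.2.2.1 p.2.2.2).Nonempty) :
    ∃ b : TwoF (Cov h), b.Smooth ∧ b.Closed ∧ b.Real ∧ CS b ∧
      ∀ (m : ℕ) [NeZero m] (ψ : Fin G.n × ZMod m → CovM h m → ℂ), (∀ a, Reg0 ∞ 0 (ψ a)) →
        (∀ x, ∑ a, ψ a x = 1) → (∀ a, tsupport (ψ a) ⊆ D.UM m a.1 a.2) →
        ∀ (n : Fin G.n × ZMod m → Fin G.n × ZMod m → Fin G.n × ZMod m → ℤ),
        (∀ a b c d, ∀ x, x ∈ D.UM m a.1 a.2 → x ∈ D.UM m b.1 b.2 → x ∈ D.UM m c.1 c.2 →
          x ∈ D.UM m d.1 d.2 → n b c d - n a c d + n a b d - n a b c = 0) →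
        ∀ w : TwoF (CovM h m), w.Smooth →
          ExactTwo (w - (-(2 * Real.pi * Complex.I)) • Wt ψ fun a b c => (n a b c : ℂ)) →
          ∀ j : ℤ, pair (shF j b) (pullM m w) =
            (2 * Real.pi * Complex.I) * ((ev (pullN m n) (shC j y) : ℤ) : ℂ) := by
  obtain ⟨b, h1, h2, h3, h4, h5⟩ := exists_dual_cov D y hy hyT
  refine ⟨b, h1, h2, h3, h4, fun m _ ψ hψ hsum hsupp n hn w hw hex j => ?_⟩
  obtain ⟨θ, hθ, hθw⟩ := hex
  have hz0 := gzig_Wt hψ hsum (U := fun a => D.UM m a.1 a.2) hsupp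
    (r := fun a b c => (n a b c : ℂ)) (fun a b c d x ha hb hc hd => by
      have := hn a b c d x ha hb hc hd
      exact_mod_cast this)
  have hz1 := hz0.affine (-(2 * Real.pi * Complex.I)) hθ hθw
  -- pull back to the infinite cyclic cover
  have hz2 := hz1.pull (chartMap_toM (hh := h) (m := m))
    (U' := fun a : Fin G.n × ℤ => D.U a.1 a.2)
    (fun a => (a.1, (a.2 : ZMod m))) (fun a x hx => D.toM_mem_UM.2 ⟨a.2, rfl, hx⟩)
  -- translate
  have hz3 := hz2.pull (chartMap_shift (hh := h) j)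
    (U' := fun a : Fin G.n × ℤ => D.U a.1 a.2) (sh j) (fun a x hx => by
      change Cov.shift j x ∈ D.U a.1 (a.2 + j)
      exact D.shift_mem_U.2 hx)
  have hsh : pull2 (Cov.shift j : Cov h → Cov h) (pull2 (Cov.toM m) w) =
      shF (-j) (pullM m w) := by
    unfold pull2 shF pullM
    simp only [neg_neg]
  have h6 := h5 _ _ _ _ hz3
  rw [hsh] at h6
  have h7 : pair (shF j b) (pullM m w) = pair (shF (-j) (pullM m w)) b := by
    have e1 : pullM m w = shF j (shF (-j) (pullM m w)) := by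
      rw [shF_shF, add_neg_cancel, shF_zero]
    have hws : (pullM m w).Smooth := H.smooth_pull m w hw
    conv_lhs => rw [e1]
    rw [H.pair_sh j b _ h1 (H.smooth_sh _ _ hws) h4, BlockC.pair_comm]
  rw [h7, h6, ev_shC, ← ev_cast']
  congr 2
  funext a b' c
  simp only [pullN]
  ring

end cov

end Vale.Agent.P267.H82
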