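import Vale.Agent.P267.H399.Calc
import Vale.Agent.P267.H857.Bridge4
import Vale.Agent.P267.H857.Alg

/-!
P267, package LATTICE-LIFT: Leibniz rule for `f • A`, `f` a smooth function, `A` a smooth one-form.
-/

set_option autoImplicit false
set_option linter.unusedSectionVars false

open scoped Manifold ContDiff ComplexConjugate
open Set
open Vale.Agent.P267.FL

noncomputable section

namespace Vale.Agent.P267.H82

variable {X : Type*} [TopologicalSpace X] [ChartedSpace C2 X]

/-- product of a function and a one-form -/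
def mulF (f : X → ℂ) (A : OneF X) : OneF X :=
  ⟨fun x i => f x * A.f10 x i, fun x i => f x * A.f01 x i⟩

/-- wedge product of one-forms -/
def wed (A B : OneF X) : TwoF X where
  f20 x := A.f10 x 0 * B.f10 x 1 - A.f10 x 1 * B.f10 x 0
  f11 x := Matrix.of fun i j => A.f10 x i * B.f01 x j - A.f01 x j * B.f10 x i
  f02 x := A.f01 x 0 * B.f01 x 1 - A.f01 x 1 * B.f01 x 0

theorem loc10_chartAt' (c : X → Fin 2 → ℂ) (x : X) [IsManifold 𝓘(ℂ, C2) ω X] :
    loc10 (chartAt C2 x) c (chartAt C2 x x) = c x := by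
  funext i
  simp only [loc10, (chartAt C2 x).left_inv (mem_chart_source C2 x), jac_chartAt,
    Matrix.one_apply, smul_eq_mul, Fin.sum_univ_two]
  fin_cases i <;> simp

theorem loc10_mulF (e : Ch X) (f : X → ℂ) (c : X → Fin 2 → ℂ) (z : C2) (i : Fin 2) :
    loc10 e (fun y i => f y * c y i) z i = f (e.symm z) * loc10 e c z i := by
  simp only [loc10, smul_eq_mul, Finset.mul_sum]
  exact Finset.sum_congr rfl fun p _ => by ring

theorem loc1_mulF (e : Ch X) (f : X → ℂ) (c : X → Fin 2 → ℂ) (z : C2) (i : Fin 2) :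
    loc1 0 e (fun y i => f y * c y i) z i = f (e.symm z) * loc1 0 e c z i := by
  simp only [loc1, smul_eq_mul, zpow_zero, one_mul, Finset.mul_sum]
  exact Finset.sum_congr rfl fun p _ => by ring

theorem smooth_mulF {f : X → ℂ} {A : OneF X} (hf : Reg0 ∞ 0 f) (hA : A.Smooth) :
    (mulF f A).Smooth := by
  constructor
  · intro e he
    have h1 := hf e he
    rw [LB.loc0_zero] at h1
    have h2 : loc10 e (mulF f A).f10 = fun z => fun i => f (e.symm z) * loc10 e A.f10 z i := by
      funext z i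
      exact loc10_mulF e f A.f10 z i
    rw [h2]
    refine contDiffOn_pi.2 fun i => ContDiffOn.mul h1 ?_
    exact contDiffOn_pi.1 (hA.s10 e he) i
  · intro e he
    have h1 := hf e he
    rw [LB.loc0_zero] at h1
    have h2 : loc1 0 e (mulF f A).f01 = fun z => fun i => f (e.symm z) * loc1 0 e A.f01 z i := by
      funext z i
      exact loc1_mulF e f A.f01 z i
    rw [h2]
    refine contDiffOn_pi.2 fun i => ContDiffOn.mul h1 ?_
    exact contDiffOn_pi.1 (hA.s01 e he) i

variable [IsManifold 𝓘(ℂ, C2) ω X]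

/-- Leibniz rule -/
theorem d_mulF {f : X → ℂ} {A : OneF X} (hf : Reg0 ∞ 0 f) (hA : A.Smooth) (x : X) :
    (mulF f A).d.f20 x = (wed (dF0 f) A).f20 x + f x * A.d.f20 x ∧
    (mulF f A).d.f11 x = (wed (dF0 f) A).f11 x + f x • A.d.f11 x ∧
    (mulF f A).d.f02 x = (wed (dF0 f) A).f02 x + f x * A.d.f02 x := by
  set e := chartAt C2 x with he
  have hea : e ∈ atlas C2 X := chart_mem_atlas C2 x
  have hxt : e x ∈ e.target := e.map_source (mem_chart_source C2 x)
  have hxs : e.symm (e x) = x := e.left_inv (mem_chart_source C2 x)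
  have hnh : e.target ∈ nhds (e x) := e.open_target.mem_nhds hxt
  have hf0 : DifferentiableAt ℝ (fun z => f (e.symm z)) (e x) := by
    have h1 := hf e hea
    rw [LB.loc0_zero] at h1
    exact (h1.contDiffAt hnh).differentiableAt (by simp)
  have h10 : ∀ i, DifferentiableAt ℝ (fun z => loc10 e A.f10 z i) (e x) := fun i =>
    ((contDiffOn_pi.1 (hA.s10 e hea) i).contDiffAt hnh).differentiableAt (by simp)
  have h01 : ∀ i, DifferentiableAt ℝ (fun z => loc1 0 e A.f01 z i) (e x) := fun i =>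
    ((contDiffOn_pi.1 (hA.s01 e hea) i).contDiffAt hnh).differentiableAt (by simp)
  have e10 : ∀ i, loc10 e A.f10 (e x) i = A.f10 x i := fun i => by rw [he, loc10_chartAt']
  have e01 : ∀ i, loc1 0 e A.f01 (e x) i = A.f01 x i := fun i => by
    have := loc1_chartAt (V := ℂ) 0 A.f01 x
    rw [he, this]
  have hdz : ∀ i, dz i (fun z => f (e.symm z)) (e x) = (dF0 f).f10 x i := fun i => rfl
  have hdzb : ∀ i, dzb i (fun z => f (e.symm z)) (e x) = (dF0 f).f01 x i := fun i => by
    have h1 : loc0 0 e f = fun z => f (e.symm z) := LB.loc0_zero e f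
    rw [← h1]
    rfl
  have k10 : ∀ i j, dz i (fun z => loc10 e (mulF f A).f10 z j) (e x) =
      (dF0 f).f10 x i * A.f10 x j + f x * dz i (fun z => loc10 e A.f10 z j) (e x) := by
    intro i j
    have h1 : (fun z => loc10 e (mulF f A).f10 z j) =
        fun z => f (e.symm z) * loc10 e A.f10 z j := funext fun z => loc10_mulF e f A.f10 z j
    rw [h1, dz_mul hf0 (h10 j), hdz, e10, hxs]
    ring
  have k10b : ∀ i j, dzb i (fun z => loc10 e (mulF f A).f10 z j) (e x) =
      (dF0 f).f01 x i * A.f10 x j + f x * dzb i (fun z => loc10 e A.f10 z j) (e x) := by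
    intro i j
    have h1 : (fun z => loc10 e (mulF f A).f10 z j) =
        fun z => f (e.symm z) * loc10 e A.f10 z j := funext fun z => loc10_mulF e f A.f10 z j
    rw [h1, dzb_mul hf0 (h10 j), hdzb, e10, hxs]
    ring
  have k01 : ∀ i j, dz i (fun z => loc1 0 e (mulF f A).f01 z j) (e x) =
      (dF0 f).f10 x i * A.f01 x j + f x * dz i (fun z => loc1 0 e A.f01 z j) (e x) := by
    intro i j
    have h1 : (fun z => loc1 0 e (mulF f A).f01 z j) =
        fun z => f (e.symm z) * loc1 0 e A.f01 z j := funext fun z => loc1_mulF e f A.f01 z j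
    rw [h1, dz_mul hf0 (h01 j), hdz, e01, hxs]
    ring
  have k01b : ∀ i j, dzb i (fun z => loc1 0 e (mulF f A).f01 z j) (e x) =
      (dF0 f).f01 x i * A.f01 x j + f x * dzb i (fun z => loc1 0 e A.f01 z j) (e x) := by
    intro i j
    have h1 : (fun z => loc1 0 e (mulF f A).f01 z j) =
        fun z => f (e.symm z) * loc1 0 e A.f01 z j := funext fun z => loc1_mulF e f A.f01 z j
    rw [h1, dzb_mul hf0 (h01 j), hdzb, e01, hxs]
    ring
  refine ⟨?_, ?_, ?_⟩
  · change dz 0 (fun z => loc10 e (mulF f A).f10 z 1) (e x) -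
      dz 1 (fun z => loc10 e (mulF f A).f10 z 0) (e x) = _
    rw [k10, k10]
    change _ = ((dF0 f).f10 x 0 * A.f10 x 1 - (dF0 f).f10 x 1 * A.f10 x 0) +
      f x * (dz 0 (fun z => loc10 e A.f10 z 1) (e x) - dz 1 (fun z => loc10 e A.f10 z 0) (e x))
    ring
  · ext i j
    change dz i (fun z => loc1 0 e (mulF f A).f01 z j) (e x) +
      -dzb j (fun z => loc10 e (mulF f A).f10 z i) (e x) = _
    rw [k01, k10b]
    change _ = ((dF0 f).f10 x i * A.f01 x j - (dF0 f).f01 x j * A.f10 x i) +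
      f x * (dz i (fun z => loc1 0 e A.f01 z j) (e x) + -dzb j (fun z => loc10 e A.f10 z i) (e x))
    ring
  · change dzb 0 (fun z => loc1 0 e (mulF f A).f01 z 1) (e x) -
      dzb 1 (fun z => loc1 0 e (mulF f A).f01 z 0) (e x) = _
    rw [k01b, k01b]
    change _ = ((dF0 f).f01 x 0 * A.f01 x 1 - (dF0 f).f01 x 1 * A.f01 x 0) +
      f x * (dzb 0 (fun z => loc1 0 e A.f01 z 1) (e x) - dzb 1 (fun z => loc1 0 e A.f01 z 0) (e x))
    ring

/-- `d (f dg) = df ∧ dg` -/
theorem d_mulF_dF0 {f g : X → ℂ} (hf : Reg0 ∞ 0 f) (hg : Reg0 ∞ 0 g) :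
    (mulF f (dF0 g)).d = wed (dF0 f) (dF0 g) := by
  have h1 := H857.d_dF0 hg
  refine TwoF.ext (funext fun x => ?_) (funext fun x => ?_) (funext fun x => ?_)
  · rw [(d_mulF hf (H857.smooth_dF0 hg) x).1, h1]
    simp
  · rw [(d_mulF hf (H857.smooth_dF0 hg) x).2.1, h1]
    simp
  · rw [(d_mulF hf (H857.smooth_dF0 hg) x).2.2, h1]
    simp

end Vale.Agent.P267.H82
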