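import Vale.Agent.P267.H469.Inst
import Vale.Agent.P267.H82.Leib

/-!
P267, package LATTICE-LIFT: linearity of `d` on smooth forms, in the module language of
`H857/Alg.lean`.
-/

set_option autoImplicit false
set_option linter.unusedSectionVars false

open scoped Manifold ContDiff ComplexConjugate
open Set
open Vale.Agent.P267.FL

noncomputable section

namespace Vale.Agent.P267.H82

variable {X : Type*} [TopologicalSpace X] [ChartedSpace C2 X] [IsManifold 𝓘(ℂ, C2) ω X]

theorem smooth1_zero : (0 : OneF X).Smooth :=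
  ⟨(H469.S10 X).zero_mem, (H469.S01 X).zero_mem⟩

theorem smooth1_add {A B : OneF X} (hA : A.Smooth) (hB : B.Smooth) : (A + B).Smooth :=
  ⟨(H469.S10 X).add_mem hA.s10 hB.s10, (H469.S01 X).add_mem hA.s01 hB.s01⟩

theorem smooth1_smul (c : ℂ) {A : OneF X} (hA : A.Smooth) : (c • A).Smooth :=
  ⟨(H469.S10 X).smul_mem c hA.s10, (H469.S01 X).smul_mem c hA.s01⟩

theorem smooth1_sum {κ : Type*} (s : Finset κ) {A : κ → OneF X} (hA : ∀ i ∈ s, (A i).Smooth) :
    (∑ i ∈ s, A i).Smooth := by
  classical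
  induction s using Finset.induction_on with
  | empty => rw [Finset.sum_empty]; exact smooth1_zero
  | insert a s ha ih =>
    rw [Finset.sum_insert ha]
    exact smooth1_add (hA a (Finset.mem_insert_self a s))
      (ih fun i hi => hA i (Finset.mem_insert_of_mem hi))

theorem smooth0_zero : Reg0 ∞ 0 (0 : X → ℂ) := (H469.S0 X).zero_mem

theorem smooth0_add {s t : X → ℂ} (hs : Reg0 ∞ 0 s) (ht : Reg0 ∞ 0 t) : Reg0 ∞ 0 (s + t) :=
  (H469.S0 X).add_mem hs ht

theorem smooth0_smul (c : ℂ) {s : X → ℂ} (hs : Reg0 ∞ 0 s) : Reg0 ∞ 0 (c • s) :=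
  (H469.S0 X).smul_mem c hs

theorem smooth0_sum {κ : Type*} (s : Finset κ) {f : κ → X → ℂ} (hf : ∀ i ∈ s, Reg0 ∞ 0 (f i)) :
    Reg0 ∞ 0 (∑ i ∈ s, f i) := by
  classical
  induction s using Finset.induction_on with
  | empty => rw [Finset.sum_empty]; exact smooth0_zero
  | insert a s ha ih =>
    rw [Finset.sum_insert ha]
    exact smooth0_add (hf a (Finset.mem_insert_self a s))
      (ih fun i hi => hf i (Finset.mem_insert_of_mem hi))

theorem d_add {A B : OneF X} (hA : A.Smooth) (hB : B.Smooth) : (A + B).d = A.d + B.d := by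
  refine TwoF.ext ?_ ?_ ?_
  · exact H469.del10_add hA.s10 hB.s10
  · change del1 (A.f01 + B.f01) + dbar10 (A.f10 + B.f10) = _
    rw [H469.del1_add hA.s01 hB.s01, H469.dbar10_add hA.s10 hB.s10]
    change _ = (del1 A.f01 + dbar10 A.f10) + (del1 B.f01 + dbar10 B.f10)
    abel
  · exact H469.dbar1_add hA.s01 hB.s01

theorem d_smul (c : ℂ) {A : OneF X} (hA : A.Smooth) : (c • A).d = c • A.d := by
  refine TwoF.ext ?_ ?_ ?_
  · exact H469.del10_smul hA.s10 c
  · change del1 (c • A.f01) + dbar10 (c • A.f10) = _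
    rw [H469.del1_smul hA.s01 c, H469.dbar10_smul hA.s10 c]
    change _ = c • (del1 A.f01 + dbar10 A.f10)
    rw [smul_add]
  · exact H469.dbar1_smul hA.s01 c

theorem d_zero1 : (0 : OneF X).d = 0 := by
  have := d_smul 0 (smooth1_zero (X := X))
  rwa [zero_smul, zero_smul] at this

theorem d_sum {κ : Type*} (s : Finset κ) {A : κ → OneF X} (hA : ∀ i ∈ s, (A i).Smooth) :
    (∑ i ∈ s, A i).d = ∑ i ∈ s, (A i).d := by
  classical
  induction s using Finset.induction_on with
  | empty => rw [Finset.sum_empty, Finset.sum_empty, d_zero1]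
  | insert a s ha ih =>
    rw [Finset.sum_insert ha, Finset.sum_insert ha, d_add (hA a (Finset.mem_insert_self a s))
      (smooth1_sum s fun i hi => hA i (Finset.mem_insert_of_mem hi)),
      ih fun i hi => hA i (Finset.mem_insert_of_mem hi)]

theorem dF0_add {s t : X → ℂ} (hs : Reg0 ∞ 0 s) (ht : Reg0 ∞ 0 t) :
    dF0 (s + t) = dF0 s + dF0 t :=
  OneF.ext (H469.del0_add hs ht) (H469.dbar0_add hs ht)

theorem dF0_smul (c : ℂ) {s : X → ℂ} (hs : Reg0 ∞ 0 s) : dF0 (c • s) = c • dF0 s :=
  OneF.ext (H469.del0_smul hs c) (H469.dbar0_smul hs c)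

theorem dF0_zero : dF0 (0 : X → ℂ) = 0 := by
  have := dF0_smul 0 (smooth0_zero (X := X))
  rwa [zero_smul, zero_smul] at this

theorem dF0_sum {κ : Type*} (s : Finset κ) {f : κ → X → ℂ} (hf : ∀ i ∈ s, Reg0 ∞ 0 (f i)) :
    dF0 (∑ i ∈ s, f i) = ∑ i ∈ s, dF0 (f i) := by
  classical
  induction s using Finset.induction_on with
  | empty => rw [Finset.sum_empty, Finset.sum_empty, dF0_zero]
  | insert a s ha ih =>
    rw [Finset.sum_insert ha, Finset.sum_insert ha, dF0_add (hf a (Finset.mem_insert_self a s))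
      (smooth0_sum s fun i hi => hf i (Finset.mem_insert_of_mem hi)),
      ih fun i hi => hf i (Finset.mem_insert_of_mem hi)]

omit [IsManifold 𝓘(ℂ, C2) ω X] in
theorem dF0_const (c : ℂ) : dF0 (fun _ : X => c) = 0 := by
  refine OneF.ext (funext fun x => funext fun i => ?_) (funext fun x => funext fun i => ?_)
  · change dz i (fun _ => c) _ = 0
    rw [dz_const]
  · change dzb i (loc0 0 (chartAt C2 x) (fun _ => c)) _ = 0
    rw [LB.loc0_zero]
    change dzb i (fun _ => c) _ = 0
    rw [dzb_const]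

/-- `d` of a function vanishing near a point -/
theorem dF0_eq_zero_of {f : X → ℂ} {x : X} (h : x ∉ tsupport f) :
    (dF0 f).f10 x = 0 ∧ (dF0 f).f01 x = 0 := by
  have h0 : f =ᶠ[nhds x] 0 := notMem_tsupport_iff_eventuallyEq.1 h
  have hc : Filter.Tendsto (chartAt C2 x).symm (nhds (chartAt C2 x x)) (nhds x) := by
    have h1 := (chartAt C2 x).continuousAt_symm ((chartAt C2 x).map_source (mem_chart_source C2 x))
    have h2 : (chartAt C2 x).symm (chartAt C2 x x) = x :=
      (chartAt C2 x).left_inv (mem_chart_source C2 x)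
    rw [ContinuousAt, h2] at h1
    exact h1
  have h1 : (fun z => f ((chartAt C2 x).symm z)) =ᶠ[nhds (chartAt C2 x x)] fun _ => (0 : ℂ) :=
    hc.eventually h0
  constructor
  · funext i
    change dz i (fun z => f ((chartAt C2 x).symm z)) _ = 0
    rw [dz_congr h1, dz_const]
  · funext i
    change dzb i (loc0 0 (chartAt C2 x) f) _ = 0
    rw [LB.loc0_zero]
    change dzb i (fun z => f ((chartAt C2 x).symm z)) _ = 0
    rw [dzb_congr h1, dzb_const]

end Vale.Agent.P267.H82
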