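import Vale.Agent.P267.H82.Cut
import Vale.Agent.P267.H82.Test
import Vale.Agent.P267.H283.Out

/-!
P267, package LATTICE-LIFT: the derivation of `BlockC.LiftThm` from the geometric inputs
(nerve cocycles of line bundles, local duality, line bundles of compactly supported cocycles).
-/

set_option autoImplicit false
set_option linter.unusedSectionVars false

open scoped Manifold ContDiff ComplexConjugate
open Set hiding pair_comm
open Vale.Agent.P267.FL Vale.Agent.P267.H158 Vale.Agent.P267.RR Vale.Agent.P267.BlockC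

noncomputable section

namespace Vale.Agent.P267.H82

variable {X : Type} [TopologicalSpace X] [ChartedSpace C2 X]

/-- what the geometric packages deliver for a periodic good cover of the infinite cyclic cover;
`Nv M L z` says that `z` is the periodic pull back of a nerve cocycle of `L` -/
structure LiftIn (h : C(X, UnitAddCircle)) (ι : Type) (K : PNerve ι)
    (F : ι × ℤ → ι × ℤ → ι × ℤ → ι × ℤ → Prop)
    (Nv : ∀ (M : ℕ) [NeZero M], ALB (CovM h M) → (ι × ℤ → ι × ℤ → ι × ℤ → ℤ) → Prop)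
    (c₀ : ℂ) : Prop where
  face : ∀ a b c d, F a b c d → K.T b c d ∧ K.T a c d ∧ K.T a b d ∧ K.T a b c
  faceS : ∀ (k : ℤ) a b c d, F (sh k a) (sh k b) (sh k c) (sh k d) ↔ F a b c d
  hc : c₀ = 2 * Real.pi * Complex.I ∨ c₀ = -(2 * Real.pi * Complex.I)
  ex : ∀ (M : ℕ) [NeZero M] (L : ALB (CovM h M)), ∃ z, Nv M L z
  per : ∀ (M : ℕ) [NeZero M] (L : ALB (CovM h M)) z, Nv M L z →
    ∀ a b c, z (sh M a) (sh M b) (sh M c) = z a b c
  coc : ∀ (M : ℕ) [NeZero M] (L : ALB (CovM h M)) z, Nv M L z →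
    ∀ a b c d, F a b c d → z b c d - z a c d + z a b d - z a b c = 0
  dual : ∀ y : Ch2 ι, bdr y = 0 → (∀ p, y p ≠ 0 → K.T p.1 p.2.1 p.2.2) →
    ∃ b : TwoF (Cov h), b.Smooth ∧ b.Closed ∧ b.Real ∧ CS b ∧
      ∀ (M : ℕ) [NeZero M] (L : ALB (CovM h M)) z, Nv M L z → ∀ j : ℤ,
        pair (shF j b) (pullM M L.L.curv) = c₀ * (ev z (shC j y) : ℤ)
  lift : ∃ l₀ : ℕ, K.w ≤ l₀ ∧ ∀ (M : ℕ) [NeZero M], 2 * l₀ < M →
    ∀ (L : ALB (CovM h M)) (z : ι × ℤ → ι × ℤ → ι × ℤ → ℤ), Nv M L z → ∀ (j : ℤ)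
      (β : ι × ℤ → ι × ℤ → ℝ) (e : ι × ℤ → ι × ℤ → ι × ℤ → ℤ),
        (∀ a b, β (sh M a) (sh M b) = β a b) →
        (∀ a b c d, F a b c d → e b c d - e a c d + e a b d - e a b c = 0) →
        (∀ a b c, e a b c ≠ 0 → K.T a b c ∧
          (j + l₀ - K.w < a.2 ∧ a.2 < j + M - l₀ + K.w) ∧
          (j + l₀ - K.w < b.2 ∧ b.2 < j + M - l₀ + K.w) ∧
          (j + l₀ - K.w < c.2 ∧ c.2 < j + M - l₀ + K.w)) →
        (∀ a b c, K.T a b c → ∃ k : ℤ,
          ((e (sh (k * M) a) (sh (k * M) b) (sh (k * M) c) : ℤ) : ℝ)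
            = z a b c + (β b c - β a c + β a b) ∧
          ∀ k' : ℤ, k' ≠ k → e (sh (k' * M) a) (sh (k' * M) b) (sh (k' * M) c) = 0) →
        ∃ (E : ALB (Cov h)) (i₀ : E.ι) (R : ℝ), EndTriv h E i₀ R ∧
          isec E.L E.L = isec L.L L.L ∧
          ∀ F : TwoF (CovM h M), F.Smooth → F.Closed →
            pair F L.L.curv = pair (pullM M F) E.L.curv

/-- sums over residue classes -/
lemma sum_wrap (f : ℤ → ℝ) (hf : f.support.Finite) (M : ℕ) (hM : 0 < M) (j : ℤ) :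
    ∑ j' ∈ Finset.range M, |∑ᶠ k : ℤ, f (M * k + (j' - j))| ≤ ∑ t ∈ hf.toFinset, |f t| := by
  classical
  have hM' : (0 : ℤ) < M := by exact_mod_cast hM
  have h1 : ∀ j' ∈ Finset.range M, |∑ᶠ k : ℤ, f (M * k + (j' - j))| ≤
      ∑ t ∈ hf.toFinset with ((t + j) % M).toNat = j', |f t| := by
    intro j' hj'
    have hj'M : (j' : ℤ) < M := by exact_mod_cast Finset.mem_range.mp hj'
    have hinj : Function.Injective (fun k : ℤ => (M : ℤ) * k + ((j' : ℤ) - j)) := by
      intro k k' hk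
      simp only [add_left_inj] at hk
      exact mul_left_cancel₀ hM'.ne' hk
    have h2 : ∑ᶠ k : ℤ, f (M * k + (j' - j)) =
        ∑ t ∈ hf.toFinset with ((t + j) % M).toNat = j', f t := by
      rw [← finsum_mem_range (f := f) hinj]
      refine finsum_mem_eq_sum_of_inter_support_eq f ?_
      ext t
      simp only [Set.mem_inter_iff, Set.mem_range, Function.mem_support, Finset.coe_filter,
        Set.Finite.mem_toFinset, Set.mem_setOf_eq]
      constructor
      · rintro ⟨⟨k, rfl⟩, hne⟩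
        refine ⟨⟨hne, ?_⟩, hne⟩
        have h3 : (M : ℤ) * k + ((j' : ℤ) - j) + j = j' + M * k := by ring
        rw [h3, Int.add_mul_emod_self_left, Int.emod_eq_of_lt (by positivity) hj'M]
        simp
      · rintro ⟨⟨-, ht⟩, hne⟩
        refine ⟨⟨(t + j) / M, ?_⟩, hne⟩
        have h3 : ((t + j) % M) = j' := by
          rw [← ht, Int.toNat_of_nonneg (Int.emod_nonneg _ hM'.ne')]
        have h4 := Int.mul_ediv_add_emod (t + j) M
        rw [h3] at h4
        linarith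
    rw [h2]
    exact Finset.abs_sum_le_sum_abs _ _
  refine (Finset.sum_le_sum h1).trans (le_of_eq ?_)
  refine Finset.sum_fiberwise_of_maps_to (fun t _ => ?_) _
  rw [Finset.mem_range]
  have h5 := Int.emod_lt_of_pos (t + j) hM'
  have h6 := Int.emod_nonneg (t + j) hM'.ne'
  omega

lemma ev_cast {ι : Type*} (z : ι × ℤ → ι × ℤ → ι × ℤ → ℤ) (y : Ch2 ι) :
    ev (fun a b c => (z a b c : ℝ)) y = ((ev z y : ℤ) : ℝ) := by
  rw [ev_eq_sum, ev_eq_sum, Finsupp.sum, Finsupp.sum]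
  push_cast
  refine Finset.sum_congr rfl fun p _ => ?_
  rw [zsmul_eq_mul]
  simp

section closedForms

variable {Y : Type} [TopologicalSpace Y] [ChartedSpace C2 Y]

/-- the real closed two-forms of a closed surface -/
def Vr (H : FormFacts Y)
    (hca : ∀ F G : TwoF Y, F.Smooth → G.Smooth → F.Closed → G.Closed → (F + G).Closed)
    (L : ALB Y) : Submodule ℝ (TwoF Y) where
  carrier := {F | F.Smooth ∧ F.Closed ∧ F.Real}
  zero_mem' := by
    have h1 := H.smooth_smul 0 _ (H.curv_smooth L)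
    have h2 := H.closed_smul 0 _ (H.curv_smooth L) (H.curv_closed L)
    rw [zero_smul] at h1 h2
    exact ⟨h1, h2, fun x => by simp⟩
  add_mem' := fun {F G} hF hG => ⟨H.smooth_add F G hF.1 hG.1,
    hca F G hF.1 hG.1 hF.2.1 hG.2.1, TwoF.real_add hF.2.2 hG.2.2⟩
  smul_mem' := fun c F hF => ⟨H.smooth_smul c F hF.1, H.closed_smul c F hF.1 hF.2.1,
    TwoF.real_smul hF.2.2 c⟩

variable (H : FormFacts Y)
    (hca : ∀ F G : TwoF Y, F.Smooth → G.Smooth → F.Closed → G.Closed → (F + G).Closed)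
    (L : ALB Y)

/-- minus the intersection form -/
def Br : Vr H hca L →ₗ[ℝ] Vr H hca L →ₗ[ℝ] ℝ :=
  LinearMap.mk₂ ℝ (fun F G => -(pair F.1 G.1).re)
    (fun F F' G => by
      have := H.pair_add F.1 F'.1 G.1 F.2.1 F'.2.1 G.2.1
      rw [Submodule.coe_add, this, Complex.add_re]
      ring)
    (fun c F G => by
      have := H.pair_smul c F.1 G.1 F.2.1 G.2.1
      rw [Submodule.coe_smul, smulR_eq, this, Complex.re_ofReal_mul, smul_eq_mul]
      ring)
    (fun F G G' => by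
      have := H.pair_add G.1 G'.1 F.1 G.2.1 G'.2.1 F.2.1
      rw [Submodule.coe_add, pair_comm, this, Complex.add_re, pair_comm G.1, pair_comm G'.1]
      ring)
    (fun c F G => by
      have := H.pair_smul c G.1 F.1 G.2.1 F.2.1
      rw [Submodule.coe_smul, smulR_eq, pair_comm, this, Complex.re_ofReal_mul, smul_eq_mul,
        pair_comm G.1]
      ring)

theorem Br_apply (F G : Vr H hca L) : Br H hca L F G = -(pair F.1 G.1).re := rfl

end closedForms

theorem real_cl {Y : Type} [TopologicalSpace Y] [ChartedSpace C2 Y] (H : FormFacts Y) (L : ALB Y) :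
    ((Complex.I / (2 * Real.pi)) • L.L.curv).Real := by
  have h1 : (Complex.I / (2 * Real.pi)) • L.L.curv =
      ((1 / (2 * Real.pi) : ℝ) : ℂ) • Complex.I • L.L.curv := by
    rw [smul_smul]
    congr 1
    push_cast
    ring
  rw [h1]
  exact TwoF.real_smul (H.curv_real L) _

/-- **The lift theorem from the geometric inputs.** -/
theorem LiftIn.exists_lift {h : C(X, UnitAddCircle)} {ι : Type} [Finite ι] {K : PNerve ι}
    {F : ι × ℤ → ι × ℤ → ι × ℤ → ι × ℤ → Prop}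
    {Nv : ∀ (M : ℕ) [NeZero M], ALB (CovM h M) → (ι × ℤ → ι × ℤ → ι × ℤ → ℤ) → Prop} {c₀ : ℂ}
    (G : LiftIn h ι K F Nv c₀) (H : CovFacts h) (HF : ∀ (m : ℕ) [NeZero m], FormFacts (CovM h m))
    (hca : ∀ (m : ℕ) [NeZero m] (F G : TwoF (CovM h m)), F.Smooth → G.Smooth → F.Closed →
      G.Closed → (F + G).Closed) {n : ℕ}
    (hS : ∀ (m : ℕ) [NeZero m], SurfIn (CovM h m) (m * n)) :
    ∃ (m : ℕ) (_ : NeZero m), Lift h m := by
  classical
  obtain ⟨l₀, hw, hlift⟩ := G.lift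
  obtain ⟨l, p, hp, Hl⟩ := K.lift F G.face G.faceS l₀ hw
  obtain ⟨Y, hY1, hY2⟩ := K.exists_cycles' l
  have hdual : ∀ y : {y // y ∈ Y}, ∃ b : H.Vc,
      ∀ (M : ℕ) [NeZero M] (L : ALB (CovM h M)) z, Nv M L z → ∀ j : ℤ,
        pair (shF j b.1) (pullM M L.L.curv) = c₀ * (ev z (shC j y.1) : ℤ) := by
    intro y
    obtain ⟨b, h1, h2, h3, h4, h5⟩ := G.dual y.1 (hY1 y.1 y.2).1
      (fun q hq => ((hY1 y.1 y.2).2 q hq).1)
    exact ⟨⟨b, h1, h2, h3, h4⟩, h5⟩
  choose b hb using hdual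
  -- the Bessel constants
  let f : {y // y ∈ Y} → ℤ → ℝ := fun y k => H.Q (b y) ((H.g ^ k) (b y))
  have hfs : ∀ y, (f y).support.Finite := fun y => H.local_Q (b y) (b y)
  let C : {y // y ∈ Y} → ℝ := fun y => ∑ t ∈ (hfs y).toFinset, |f y t|
  have hC0 : ∀ y, 0 ≤ C y := fun y => Finset.sum_nonneg fun t _ => abs_nonneg _
  obtain ⟨N, hN⟩ := exists_nat_gt (∑ y, C y)
  let M : ℕ := p * (2 * l₀ + N + 1)
  have hM1 : 2 * l₀ + N + 1 ≤ M := Nat.le_mul_of_pos_left _ hp
  have hMpos : 0 < M := by omega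
  have _ : NeZero M := ⟨hMpos.ne'⟩
  refine ⟨M, inferInstance, fun L hL => ?_⟩
  obtain ⟨z, hz⟩ := G.ex M L
  have hpi : (Real.pi : ℂ) ≠ 0 := by exact_mod_cast Real.pi_ne_zero
  -- the normalised curvature
  let κ : Vr (HF M) (hca M) L := ⟨(Complex.I / (2 * Real.pi)) • L.L.curv,
    (HF M).smooth_smul _ _ ((HF M).curv_smooth L),
    (HF M).closed_smul _ _ ((HF M).curv_smooth L) ((HF M).curv_closed L), real_cl (HF M) L⟩
  have hκκ : Br (HF M) (hca M) L κ κ = 1 := by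
    have h1 : pair κ.1 κ.1 = isec L.L L.L := by
      change pair ((Complex.I / (2 * Real.pi)) • L.L.curv)
        ((Complex.I / (2 * Real.pi)) • L.L.curv) = _
      have hs := (HF M).curv_smooth L
      rw [(HF M).pair_smul _ _ _ hs ((HF M).smooth_smul _ _ hs), pair_comm,
        (HF M).pair_smul _ _ _ hs hs, ← mul_assoc, CovFacts.cc_eq, isec_eq]
    rw [Br_apply, h1, hL]
    simp
  -- the wrapped translates
  have hwrap : ∀ (y : {y // y ∈ Y}) (j : ℤ), ∃ W : Vr (HF M) (hca M) L,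
      (∀ G : TwoF (CovM h M), G.Smooth → pair W.1 G = pair (shF j (b y).1) (pullM M G)) ∧
      ∀ G : TwoF (Cov h), G.Smooth → CS G →
        pair G (pullM M W.1) = ∑ᶠ k : ℤ, pair G (shF (M * k) (shF j (b y).1)) := by
    intro y j
    obtain ⟨W, h1, h2, h3, h4, h5⟩ := H.wrap M (shF j (b y).1) (H.smooth_sh _ _ (b y).2.1)
      (H.closed_sh _ _ (b y).2.1 (b y).2.2.1) ((b y).2.2.2.2.sh j)
    exact ⟨⟨W, h1, h2, h3 (real_sh (b y).2.2.2.1 j)⟩, h4, h5⟩
  choose v hv1 hv2 using hwrap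
  have hgram : ∀ (y : {y // y ∈ Y}) (j j' : ℤ), Br (HF M) (hca M) L (v y j) (v y j') =
      -∑ᶠ k : ℤ, f y (M * k + (j' - j)) := by
    intro y j j'
    have h1 : pair (v y j).1 (v y j').1 =
        ∑ᶠ k : ℤ, pair (shF j (b y).1) (shF (M * k) (shF j' (b y).1)) := by
      rw [hv1 y j _ (v y j').2.1, hv2 y j' _ (H.smooth_sh _ _ (b y).2.1) ((b y).2.2.2.2.sh j)]
    have h2 : ∀ k : ℤ, pair (shF j (b y).1) (shF (M * k) (shF j' (b y).1)) =
        ((f y (M * k + (j' - j)) : ℝ) : ℂ) := by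
      intro k
      have h3 : shF (M * k) (shF j' (b y).1) = shF j (shF (M * k + (j' - j)) (b y).1) := by
        rw [shF_shF, shF_shF]
        congr 1
        ring
      rw [h3, H.pair_sh j _ _ (b y).2.1 (H.smooth_sh _ _ (b y).2.1) (b y).2.2.2.2]
      change _ = ((H.Q (b y) ((H.g ^ (M * k + (j' - j))) (b y)) : ℝ) : ℂ)
      rw [← H.pair_eq_Q, H.g_zpow]
    rw [Br_apply, h1, finsum_congr h2]
    have hinj : Function.Injective (fun k : ℤ => (M : ℤ) * k + (j' - j)) := by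
      intro k k' hk
      simp only [add_left_inj] at hk
      exact mul_left_cancel₀ (by exact_mod_cast hMpos.ne') hk
    have hfin : (Function.support fun k : ℤ => f y (M * k + (j' - j))).Finite :=
      Set.Finite.preimage hinj.injOn (hfs y)
    have h4 := AddMonoidHom.map_finsum (Complex.ofRealHom : ℝ →+ ℂ) hfin
    have h5 : (∑ᶠ k : ℤ, ((f y (M * k + (j' - j)) : ℝ) : ℂ)) =
        ((∑ᶠ k : ℤ, f y (M * k + (j' - j)) : ℝ) : ℂ) := h4.symm
    rw [h5, Complex.ofReal_re]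
  have hint : ∀ (y : {y // y ∈ Y}) (j : ℤ), Br (HF M) (hca M) L κ (v y j) =
        (ev z (shC j y.1) : ℤ) ∨
      Br (HF M) (hca M) L κ (v y j) = ((-(ev z (shC j y.1)) : ℤ) : ℝ) := by
    intro y j
    have h1 : pair κ.1 (v y j).1 = (Complex.I / (2 * Real.pi)) * (c₀ * (ev z (shC j y.1) : ℤ)) := by
      rw [pair_comm, hv1 y j _ κ.2.1]
      have h2 : pullM M κ.1 = (Complex.I / (2 * Real.pi)) • pullM M L.L.curv := rfl
      rw [h2, H.pair_smul' _ _ _ (H.smooth_sh _ _ (b y).2.1) (H.smooth_pull M _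
        ((HF M).curv_smooth L)) ((b y).2.2.2.2.sh j), hb y M L z hz j]
    rw [Br_apply, h1]
    rcases G.hc with hc | hc
    · left
      have h3 : Complex.I / (2 * (Real.pi : ℂ)) * (c₀ * (ev z (shC j y.1) : ℤ)) =
          ((-(ev z (shC j y.1) : ℤ) : ℝ) : ℂ) := by
        rw [hc]
        field_simp
        rw [Complex.I_sq]
        push_cast
        ring
      rw [h3, Complex.ofReal_re]
      ring
    · right
      have h3 : Complex.I / (2 * (Real.pi : ℂ)) * (c₀ * (ev z (shC j y.1) : ℤ)) =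
          (((ev z (shC j y.1) : ℤ) : ℝ) : ℂ) := by
        rw [hc]
        field_simp
        rw [Complex.I_sq]
        push_cast
        ring
      rw [h3, Complex.ofReal_re]
      push_cast
      ring
  obtain ⟨j, -, hj⟩ := exists_index (Br (HF M) (hca M) L)
    (fun x y => by rw [Br_apply, Br_apply, pair_comm x.1 y.1])
    (fun x => by
      have := ((hS M).neg x.1 x.2.1 x.2.2.2 x.2.2.1).1
      rw [Br_apply]
      linarith) κ (Finset.range M) (Finset.univ : Finset {y // y ∈ Y})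
    (fun y (j : ℕ) => v y (j : ℤ)) C (fun y _ => hC0 y)
    (fun y _ j _ => by
      have h1 : ∀ j' : ℕ, |Br (HF M) (hca M) L (v y (j : ℤ)) (v y (j' : ℤ))| =
          |∑ᶠ k : ℤ, f y (M * k + ((j' : ℤ) - (j : ℤ)))| := by
        intro j'
        rw [hgram, abs_neg]
      rw [Finset.sum_congr rfl fun j' _ => h1 j']
      exact sum_wrap (f y) (hfs y) M hMpos j)
    (fun y _ j _ => by
      rcases hint y j with h1 | h1
      · exact ⟨_, h1⟩
      · exact ⟨_, h1⟩)
    (by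
      rw [hκκ, mul_one, Finset.card_range]
      have h1 : (N : ℝ) ≤ M := by exact_mod_cast (by omega : N ≤ M)
      linarith)
  have hev : ∀ y ∈ Y, ev (fun a b c => (z a b c : ℝ)) (shC (j : ℤ) y) = 0 := by
    intro y hy
    rw [ev_cast]
    have h1 := hj ⟨y, hy⟩ (Finset.mem_univ _)
    rcases hint ⟨y, hy⟩ (j : ℤ) with h2 | h2
    · rw [← h2]
      exact h1
    · have h3 : (-(ev z (shC (j : ℤ) y)) : ℤ) = 0 := by
        have h4 : ((-(ev z (shC (j : ℤ) y)) : ℤ) : ℝ) = 0 := by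
          rw [← h2]
          exact h1
        exact_mod_cast h4
      have h5 : ev z (shC (j : ℤ) y) = 0 := by omega
      rw [h5]
      simp
  obtain ⟨α, hα⟩ := hY2 (fun a b c => (z a b c : ℝ)) (j : ℤ) hev
  obtain ⟨β, e, h1, h2, h3, h4⟩ := Hl M (Dvd.intro _ rfl) (by omega) z (G.per M L z hz)
    (G.coc M L z hz) (j : ℤ) ⟨α, hα⟩
  obtain ⟨E, i₀, R, hE1, hE2, hE3⟩ := hlift M (by omega) L z hz (j : ℤ) β e h1 h2 h3 h4
  exact ⟨E, i₀, R, hE1, by rw [hE2, hL], hE3⟩

end Vale.Agent.P267.H82
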