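import Vale.Agent.P267.H622.CovMaps
import Vale.Agent.P267.H283.Out
import Vale.Agent.P267.H82.Final

/-!
P267, package LATTICE-LIFT: zigzags (Čech-de Rham) of closed two-forms made of global smooth
objects, and their pull back.
-/

set_option autoImplicit false
set_option linter.unusedSectionVars false

open scoped Manifold ContDiff ComplexConjugate
open Set hiding pair_comm
open Vale.Agent.P267.FL Vale.Agent.P267.H158 Vale.Agent.P267.RR Vale.Agent.P267.BlockC
  Vale.Agent.P267.XT

noncomputable section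

namespace Vale.Agent.P267.H82

variable {N : Type*} [TopologicalSpace N] [ChartedSpace C2 N]

/-- equality of two-forms at a point -/
def Eq2 (F G : TwoF N) (x : N) : Prop := F.f20 x = G.f20 x ∧ F.f11 x = G.f11 x ∧ F.f02 x = G.f02 x

/-- equality of one-forms at a point -/
def Eq1 (F G : OneF N) (x : N) : Prop := F.f10 x = G.f10 x ∧ F.f01 x = G.f01 x

/-- a zigzag of `w` made of global smooth objects -/
structure GZig {A : Type*} (U : A → Set N) (w : TwoF N) (n : A → A → A → ℂ)
    (η : A → OneF N) (β : A → A → N → ℂ) : Prop where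
  sη : ∀ a, (η a).Smooth
  sβ : ∀ a b, Reg0 ∞ 0 (β a b)
  dη : ∀ a, ∀ x ∈ U a, Eq2 (η a).d w x
  dβ : ∀ a b, ∀ x, x ∈ U a → x ∈ U b → Eq1 (η b - η a) (dF0 (β a b)) x
  coc : ∀ a b c, ∀ x, x ∈ U a → x ∈ U b → x ∈ U c → β b c x - β a c x + β a b x = n a b c

variable {M : Type*} [TopologicalSpace M] [ChartedSpace C2 M]
  [IsManifold 𝓘(ℂ, C2) ω M] [IsManifold 𝓘(ℂ, C2) ω N]

theorem GZig.pull {q : M → N} (hq : ChartMap q) {A A' : Type*} {U : A → Set N} {U' : A' → Set M}
    (r : A' → A) (hr : ∀ a, ∀ x ∈ U' a, q x ∈ U (r a)) {w : TwoF N} {n : A → A → A → ℂ}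
    {η : A → OneF N} {β : A → A → N → ℂ} (hz : GZig U w n η β) :
    GZig U' (pull2 q w) (fun a b c => n (r a) (r b) (r c)) (fun a => pull1 q (η (r a)))
      (fun a b x => β (r a) (r b) (q x)) where
  sη a := hq.smooth_pull1 (hz.sη _)
  sβ a b := hq.reg0_comp (hz.sβ _ _)
  dη a x hx := by
    rw [hq.d_pull1]
    exact hz.dη (r a) (q x) (hr a x hx)
  dβ a b x ha hb := by
    rw [hq.dF0_comp (β (r a) (r b))]
    exact hz.dβ (r a) (r b) (q x) (hr a x ha) (hr b x hb)
  coc a b c x ha hb hc := hz.coc (r a) (r b) (r c) (q x) (hr a x ha) (hr b x hb) (hr c x hc)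

end Vale.Agent.P267.H82
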