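import Vale.Agent.P267.H82.FLin
import Vale.Agent.P267.H82.Zig

/-!
P267, package LATTICE-LIFT: the zigzag of `W(r) = ∑ r_abc ψ_a dψ_b ∧ dψ_c`.
-/

set_option autoImplicit false
set_option linter.unusedSectionVars false

open scoped Manifold ContDiff ComplexConjugate
open Set
open Vale.Agent.P267.FL

noncomputable section

namespace Vale.Agent.P267.H82

variable {X : Type*} [TopologicalSpace X] [ChartedSpace C2 X]

/-- product of a function and a two-form -/
def mul2 (f : X → ℂ) (F : TwoF X) : TwoF X :=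
  ⟨fun x => f x * F.f20 x, fun x => f x • F.f11 x, fun x => f x * F.f02 x⟩

/-- value of a two-form at a point -/
def vx (x : X) : TwoF X →ₗ[ℂ] ℂ × Matrix (Fin 2) (Fin 2) ℂ × ℂ where
  toFun F := (F.f20 x, F.f11 x, F.f02 x)
  map_add' _ _ := rfl
  map_smul' _ _ := rfl

theorem eq2_iff {F G : TwoF X} {x : X} : Eq2 F G x ↔ vx x F = vx x G := by
  simp only [Eq2, vx, LinearMap.coe_mk, AddHom.coe_mk, Prod.mk.injEq]

theorem vx_mul2 (f : X → ℂ) (F : TwoF X) (x : X) : vx x (mul2 f F) = f x • vx x F := by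
  simp only [vx, mul2, LinearMap.coe_mk, AddHom.coe_mk, Prod.smul_mk, smul_eq_mul]

/-- wedge of one-forms as a bilinear map -/
def wedL : OneF X →ₗ[ℂ] OneF X →ₗ[ℂ] TwoF X :=
  LinearMap.mk₂ ℂ wed
    (fun A A' B => by
      refine TwoF.ext (funext fun x => ?_) (funext fun x => ?_) (funext fun x => ?_)
      · simp only [wed, OneF.f10_add, TwoF.f20_add, Pi.add_apply]; ring
      · ext i j
        simp only [wed, OneF.f10_add, OneF.f01_add, TwoF.f11_add, Pi.add_apply, Matrix.add_apply,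
          Matrix.of_apply]; ring
      · simp only [wed, OneF.f01_add, TwoF.f02_add, Pi.add_apply]; ring)
    (fun c A B => by
      refine TwoF.ext (funext fun x => ?_) (funext fun x => ?_) (funext fun x => ?_)
      · simp only [wed, OneF.f10_smul, TwoF.f20_smul, Pi.smul_apply, smul_eq_mul]; ring
      · ext i j
        simp only [wed, OneF.f10_smul, OneF.f01_smul, TwoF.f11_smul, Pi.smul_apply,
          Matrix.smul_apply, Matrix.of_apply, smul_eq_mul]; ring
      · simp only [wed, OneF.f01_smul, TwoF.f02_smul, Pi.smul_apply, smul_eq_mul]; ring)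
    (fun A B B' => by
      refine TwoF.ext (funext fun x => ?_) (funext fun x => ?_) (funext fun x => ?_)
      · simp only [wed, OneF.f10_add, TwoF.f20_add, Pi.add_apply]; ring
      · ext i j
        simp only [wed, OneF.f10_add, OneF.f01_add, TwoF.f11_add, Pi.add_apply, Matrix.add_apply,
          Matrix.of_apply]; ring
      · simp only [wed, OneF.f01_add, TwoF.f02_add, Pi.add_apply]; ring)
    (fun c A B => by
      refine TwoF.ext (funext fun x => ?_) (funext fun x => ?_) (funext fun x => ?_)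
      · simp only [wed, OneF.f10_smul, TwoF.f20_smul, Pi.smul_apply, smul_eq_mul]; ring
      · ext i j
        simp only [wed, OneF.f10_smul, OneF.f01_smul, TwoF.f11_smul, Pi.smul_apply,
          Matrix.smul_apply, Matrix.of_apply, smul_eq_mul]; ring
      · simp only [wed, OneF.f01_smul, TwoF.f02_smul, Pi.smul_apply, smul_eq_mul]; ring)

theorem wedL_apply (A B : OneF X) : wedL A B = wed A B := rfl

theorem vx_wed_eq_zero_left {A B : OneF X} {x : X} (h : A.f10 x = 0 ∧ A.f01 x = 0) :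
    vx x (wed A B) = 0 := by
  simp only [vx, wed, LinearMap.coe_mk, AddHom.coe_mk, h.1, h.2, Pi.zero_apply, zero_mul, sub_zero]
  refine Prod.ext rfl (Prod.ext ?_ rfl)
  ext i j
  simp

theorem vx_wed_eq_zero_right {A B : OneF X} {x : X} (h : B.f10 x = 0 ∧ B.f01 x = 0) :
    vx x (wed A B) = 0 := by
  simp only [vx, wed, LinearMap.coe_mk, AddHom.coe_mk, h.1, h.2, Pi.zero_apply, mul_zero, sub_zero]
  refine Prod.ext rfl (Prod.ext ?_ rfl)
  ext i j
  simp

variable {A : Type*} [Fintype A]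

/-- `W(r) = ∑ r_abc ψ_a dψ_b ∧ dψ_c` -/
def Wt (ψ : A → X → ℂ) (r : A → A → A → ℂ) : TwoF X :=
  ∑ a, ∑ b, ∑ c, r a b c • mul2 (ψ a) (wed (dF0 (ψ b)) (dF0 (ψ c)))

/-- `η_a = ∑ r_abc ψ_b dψ_c` -/
def ηW (ψ : A → X → ℂ) (r : A → A → A → ℂ) (a : A) : OneF X :=
  ∑ b, ∑ c, r a b c • mulF (ψ b) (dF0 (ψ c))

/-- `β_ab = -∑ r_abc ψ_c` -/
def βW (ψ : A → X → ℂ) (r : A → A → A → ℂ) (a b : A) : X → ℂ := -∑ c, r a b c • ψ c

variable [IsManifold 𝓘(ℂ, C2) ω X] {ψ : A → X → ℂ} (hψ : ∀ a, Reg0 ∞ 0 (ψ a))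
  (hsum : ∀ x, ∑ a, ψ a x = 1) {U : A → Set X} (hsupp : ∀ a, tsupport (ψ a) ⊆ U a)
  {r : A → A → A → ℂ}

include hψ

theorem smooth_ηW (a : A) : (ηW ψ r a).Smooth :=
  smooth1_sum _ fun b _ => smooth1_sum _ fun c _ => smooth1_smul _
    (smooth_mulF (hψ b) (H857.smooth_dF0 (hψ c)))

theorem smooth_βW (a b : A) : Reg0 ∞ 0 (βW ψ r a b) := by
  have h1 : βW ψ r a b = (-1 : ℂ) • ∑ c, r a b c • ψ c := by rw [βW, neg_one_smul]
  rw [h1]
  exact smooth0_smul _ (smooth0_sum _ fun c _ => smooth0_smul _ (hψ c))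

theorem d_ηW (a : A) : (ηW ψ r a).d = ∑ b, ∑ c, r a b c • wed (dF0 (ψ b)) (dF0 (ψ c)) := by
  have h1 : ∀ b c, (mulF (ψ b) (dF0 (ψ c))).Smooth := fun b c =>
    smooth_mulF (hψ b) (H857.smooth_dF0 (hψ c))
  rw [ηW, d_sum _ fun b _ => smooth1_sum _ fun c _ => smooth1_smul _ (h1 b c)]
  refine Finset.sum_congr rfl fun b _ => ?_
  rw [d_sum _ fun c _ => smooth1_smul _ (h1 b c)]
  refine Finset.sum_congr rfl fun c _ => ?_
  rw [d_smul _ (h1 b c), d_mulF_dF0 (hψ b) (hψ c)]

include hsum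

theorem sum_dψ : ∑ b, dF0 (ψ b) = 0 := by
  rw [← dF0_sum _ fun b _ => hψ b]
  have h1 : ∑ b, ψ b = fun _ : X => (1 : ℂ) := by
    funext x
    rw [Finset.sum_apply, hsum]
  rw [h1, dF0_const]

theorem sum_wed_left (B : OneF X) : ∑ b, wed (dF0 (ψ b)) B = 0 := by
  have h1 : ∑ b, wed (dF0 (ψ b)) B = wedL (∑ b, dF0 (ψ b)) B := by
    rw [map_sum, LinearMap.sum_apply]
    rfl
  rw [h1, sum_dψ hψ hsum, map_zero, LinearMap.zero_apply]

theorem sum_wed_right (B : OneF X) : ∑ b, wed B (dF0 (ψ b)) = 0 := by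
  have h1 : ∑ b, wed B (dF0 (ψ b)) = wedL B (∑ b, dF0 (ψ b)) := by
    rw [map_sum]
    rfl
  rw [h1, sum_dψ hψ hsum, map_zero]

include hsupp

theorem vx_zero_of (x : X) (b c : A) (h : ¬(x ∈ U b ∧ x ∈ U c)) :
    vx x (wed (dF0 (ψ b)) (dF0 (ψ c))) = 0 := by
  rw [not_and_or] at h
  rcases h with h | h
  · exact vx_wed_eq_zero_left (dF0_eq_zero_of fun hx => h (hsupp b hx))
  · exact vx_wed_eq_zero_right (dF0_eq_zero_of fun hx => h (hsupp c hx))

theorem ψ_zero_of (x : X) (a : A) (h : x ∉ U a) : ψ a x = 0 := by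
  by_contra hne
  exact h (hsupp a (subset_tsupport _ hne))

/-- **The zigzag of `W(r)`.** -/
theorem gzig_Wt (hr : ∀ a b c d, ∀ x, x ∈ U a → x ∈ U b → x ∈ U c → x ∈ U d →
      r b c d - r a c d + r a b d - r a b c = 0) :
    GZig U (Wt ψ r) (fun a b c => -r a b c) (ηW ψ r) (βW ψ r) where
  sη a := smooth_ηW hψ a
  sβ a b := smooth_βW hψ a b
  dη a x hx := by
    rw [eq2_iff, d_ηW hψ a, Wt]
    set w : A → A → ℂ × Matrix (Fin 2) (Fin 2) ℂ × ℂ :=
      fun b c => vx x (wed (dF0 (ψ b)) (dF0 (ψ c))) with hw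
    have hw0 : ∀ b c, ¬(x ∈ U b ∧ x ∈ U c) → w b c = 0 := fun b c h =>
      vx_zero_of hψ hsum hsupp x b c h
    have hl : ∀ c, ∑ b, w b c = 0 := fun c => by
      rw [hw, ← map_sum, sum_wed_left hψ hsum, map_zero]
    have hrr : ∀ b, ∑ c, w b c = 0 := fun b => by
      rw [hw, ← map_sum, sum_wed_right hψ hsum, map_zero]
    simp only [map_sum, map_smul, vx_mul2]
    change ∑ b, ∑ c, r a b c • w b c = ∑ a', ∑ b, ∑ c, r a' b c • ψ a' x • w b c
    have key : ∀ a', x ∈ U a' → ∑ b, ∑ c, r a' b c • w b c = ∑ b, ∑ c, r a b c • w b c := by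
      intro a' ha'
      have h1 : ∀ b c, r a' b c • w b c =
          r a b c • w b c - r a a' c • w b c + r a a' b • w b c := by
        intro b c
        by_cases hbc : x ∈ U b ∧ x ∈ U c
        · have h2 := hr a a' b c x hx ha' hbc.1 hbc.2
          have h3 : r a' b c = r a b c - r a a' c + r a a' b := by linear_combination h2
          rw [h3, add_smul, sub_smul]
        · rw [hw0 b c hbc]
          simp
      simp only [h1, Finset.sum_add_distrib, Finset.sum_sub_distrib]
      have h4 : ∑ b, ∑ c, r a a' c • w b c = 0 := by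
        rw [Finset.sum_comm]
        refine Finset.sum_eq_zero fun c _ => ?_
        rw [← Finset.smul_sum, hl, smul_zero]
      have h5 : ∑ b, ∑ c, r a a' b • w b c = 0 := by
        refine Finset.sum_eq_zero fun b _ => ?_
        rw [← Finset.smul_sum, hrr, smul_zero]
      rw [h4, h5, sub_zero, add_zero]
    have h6 : ∀ a', ∑ b, ∑ c, r a' b c • ψ a' x • w b c =
        ψ a' x • ∑ b, ∑ c, r a b c • w b c := by
      intro a'
      have h7 : ∑ b, ∑ c, r a' b c • ψ a' x • w b c = ψ a' x • ∑ b, ∑ c, r a' b c • w b c := by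
        simp only [Finset.smul_sum]
        refine Finset.sum_congr rfl fun b _ => Finset.sum_congr rfl fun c _ => ?_
        rw [smul_comm]
      by_cases ha' : x ∈ U a'
      · rw [h7, key a' ha']
      · rw [h7, ψ_zero_of hψ hsum hsupp x a' ha', zero_smul, zero_smul]
    rw [Finset.sum_congr rfl fun a' _ => h6 a', ← Finset.sum_smul, hsum, one_smul]
  dβ a b x ha hb := by
    -- everything through the values at `x`
    have hβ : dF0 (βW ψ r a b) = -∑ c, r a b c • dF0 (ψ c) := by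
      have h1 : βW ψ r a b = (-1 : ℂ) • ∑ c, r a b c • ψ c := by rw [βW, neg_one_smul]
      rw [h1, dF0_smul _ (smooth0_sum _ fun c _ => smooth0_smul _ (hψ c)),
        dF0_sum _ fun c _ => smooth0_smul _ (hψ c), neg_one_smul]
      congr 1
      exact Finset.sum_congr rfl fun c _ => dF0_smul _ (hψ c)
    have h0 : ∀ c, x ∉ U c → (dF0 (ψ c)).f10 x = 0 ∧ (dF0 (ψ c)).f01 x = 0 := fun c hc =>
      dF0_eq_zero_of fun hx => hc (hsupp c hx)
    have hs := sum_dψ hψ hsum
    have hs10 : ∀ i, ∑ c, (dF0 (ψ c)).f10 x i = 0 := by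
      intro i
      have h1 := congrFun (congrFun (congrArg OneF.f10 hs) x) i
      rwa [OneF.f10_sum, Finset.sum_apply, Finset.sum_apply] at h1
    have hs01 : ∀ i, ∑ c, (dF0 (ψ c)).f01 x i = 0 := by
      intro i
      have h1 := congrFun (congrFun (congrArg OneF.f01 hs) x) i
      rwa [OneF.f01_sum, Finset.sum_apply, Finset.sum_apply] at h1
    have key : ∀ D : A → ℂ, (∀ c, x ∉ U c → D c = 0) → ∑ c, D c = 0 →
        (∑ b', ∑ c, r b b' c * (ψ b' x * D c)) - (∑ b', ∑ c, r a b' c * (ψ b' x * D c)) =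
          -∑ c, r a b c * D c := by
      intro D hD hDs
      have h1 : ∀ b' c, r b b' c * (ψ b' x * D c) - r a b' c * (ψ b' x * D c) =
          r a b b' * ψ b' x * D c - ψ b' x * (r a b c * D c) := by
        intro b' c
        by_cases hb' : x ∈ U b'
        · by_cases hc : x ∈ U c
          · have h2 := hr a b b' c x ha hb hb' hc
            linear_combination ψ b' x * D c * h2
          · rw [hD c hc]; ring
        · rw [ψ_zero_of hψ hsum hsupp x b' hb']; ring
      rw [← Finset.sum_sub_distrib]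
      have h3 : ∀ b', (∑ c, r b b' c * (ψ b' x * D c)) - ∑ c, r a b' c * (ψ b' x * D c) =
          -(ψ b' x * ∑ c, r a b c * D c) := by
        intro b'
        rw [← Finset.sum_sub_distrib, Finset.sum_congr rfl fun c _ => h1 b' c,
          Finset.sum_sub_distrib, ← Finset.mul_sum, hDs, mul_zero, zero_sub, Finset.mul_sum]
      rw [Finset.sum_congr rfl fun b' _ => h3 b', Finset.sum_neg_distrib, ← Finset.sum_mul, hsum,
        one_mul]
    constructor
    · funext i
      have h1 := key (fun c => (dF0 (ψ c)).f10 x i) (fun c hc => by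
        rw [(h0 c hc).1]; rfl) (hs10 i)
      rw [hβ, OneF.f10_sub, OneF.f10_neg, Pi.sub_apply, Pi.sub_apply, Pi.neg_apply, Pi.neg_apply,
        ηW, ηW]
      simp only [OneF.f10_sum, Finset.sum_apply, OneF.f10_smul, Pi.smul_apply, smul_eq_mul, mulF]
      exact h1
    · funext i
      have h1 := key (fun c => (dF0 (ψ c)).f01 x i) (fun c hc => by
        rw [(h0 c hc).2]; rfl) (hs01 i)
      rw [hβ, OneF.f01_sub, OneF.f01_neg, Pi.sub_apply, Pi.sub_apply, Pi.neg_apply, Pi.neg_apply,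
        ηW, ηW]
      simp only [OneF.f01_sum, Finset.sum_apply, OneF.f01_smul, Pi.smul_apply, smul_eq_mul, mulF]
      exact h1
  coc a b c x ha hb hc := by
    simp only [βW, Pi.neg_apply, Finset.sum_apply, Pi.smul_apply, smul_eq_mul]
    have h1 : ∀ d, r b c d * ψ d x - r a c d * ψ d x + r a b d * ψ d x = r a b c * ψ d x := by
      intro d
      by_cases hd : x ∈ U d
      · have h2 := hr a b c d x ha hb hc hd
        linear_combination ψ d x * h2
      · rw [ψ_zero_of hψ hsum hsupp x d hd]; ring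
    have h2 : (∑ d, r b c d * ψ d x) - (∑ d, r a c d * ψ d x) + ∑ d, r a b d * ψ d x =
        r a b c := by
      rw [← Finset.sum_sub_distrib, ← Finset.sum_add_distrib, Finset.sum_congr rfl fun d _ => h1 d,
        ← Finset.mul_sum, hsum, mul_one]
    linear_combination -h2

end Vale.Agent.P267.H82
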